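import Mathlib
import Vale.Agent.Lib.P162.Defs
import Vale.Agent.Lib.P162.Law
import Vale.Agent.Lib.P162.helper58.CVFinal
import Vale.Agent.Lib.P162.helper58.CVArith

namespace Vale.Agent.Results.P162.LinearCardsAllEvenN

open Finset BigOperators
open Vale.Agent.Lib.P162

/-- Thorp shuffle of a deck of n = 2 * h cards, n ANY even number with 15776 L ^ 2 ≤ n, where
L = ⌈log₂ n⌉. Let 0 < ε ≤ 1 and track k ≤ (1 - ε) n cards that start in the distinct positions
x 0, …, x (k - 1); trackedLaw h k T x is the joint law of their positions after T shuffles,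
unifInj h k the uniform law on k-tuples of distinct positions, and the total variation distance
is half the sum of absolute differences. For every r and every T ≥ (7 L + 1) r:

1. the distance is at most (k / 2) sqrt (n (1 - ε / 8) ^ r);
2. if ε r ≥ 24 L, the distance is at most 1 / 4.

So (7 L + 1) ⌈24 L / ε⌉ shuffles suffice: a linear number of cards, of order (log n)² / ε
shuffles. -/
theorem result (h k : ℕ) [NeZero h] (ε : ℝ) (hε : 0 < ε) (hε1 : ε ≤ 1)
    (hn : 15776 * Nat.clog 2 (2 * h) ^ 2 ≤ 2 * h)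
    (hk : (k : ℝ) ≤ (1 - ε) * (2 * h : ℝ))
    (x : Fin k → ZMod (2 * h)) (hx : Function.Injective x) (r T : ℕ)
    (hT : (7 * Nat.clog 2 (2 * h) + 1) * r ≤ T) :
    (1 / 2 : ℝ) * ∑ y : Fin k → ZMod (2 * h), |trackedLaw h k T x y - unifInj h k y|
        ≤ (k : ℝ) / 2 * Real.sqrt ((2 * h : ℝ) * (1 - ε / 8) ^ r)
      ∧ (24 * (Nat.clog 2 (2 * h) : ℝ) ≤ ε * (r : ℝ) →
        (1 / 2 : ℝ) * ∑ y : Fin k → ZMod (2 * h), |trackedLaw h k T x y - unifInj h k y|
          ≤ 1 / 4) := by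
  have hmain := Vale.Agent.Lib.P162.H58.cv_all h k r ε hε hε1 hn hk x hx T hT
  refine ⟨hmain, fun hr => le_trans hmain ?_⟩
  have hpos : 0 < h := NeZero.pos h
  have hh : (0 : ℝ) < h := by exact_mod_cast hpos
  have hL1 : 1 ≤ Nat.clog 2 (2 * h) := Nat.clog_pos (by norm_num) (by omega)
  have hpow : 2 * h ≤ 2 ^ Nat.clog 2 (2 * h) := Nat.le_pow_clog (by norm_num) (2 * h)
  have hL2 : 2 ≤ Nat.clog 2 (2 * h) := by
    by_contra hlt
    have h1 : Nat.clog 2 (2 * h) = 1 := by omega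
    rw [h1] at hn hpow
    omega
  have hkn : (k : ℝ) ≤ (2 * h : ℝ) := by
    have h2 : (1 - ε) * (2 * h : ℝ) ≤ 1 * (2 * h : ℝ) :=
      mul_le_mul_of_nonneg_right (by linarith) (by positivity)
    linarith
  have hnL : (2 * h : ℝ) ≤ 2 ^ Nat.clog 2 (2 * h) := by exact_mod_cast hpow
  exact Vale.Agent.Lib.P162.H58.cv_quarter (2 * h : ℝ) k ε (Nat.clog 2 (2 * h)) r
    (Nat.cast_nonneg k) hkn hnL hL2 hε1 hr

end Vale.Agent.Results.P162.LinearCardsAllEvenN
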