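import Mathlib
import Vale.Agent.Lib.P162.Defs
import Vale.Agent.Lib.P162.Law
import Vale.Agent.Lib.P162.helper63.RMain

namespace Vale.Agent.Results.P162.ManyCardsAllEvenN

open Finset BigOperators
open Vale.Agent.Lib.P162

/-- Thorp shuffle of a deck of `n = 2 * h` cards, `n` ANY even number. Track the `k` cards that
start in the distinct positions `x 0, …, x (k - 1)`. For every integer `r ≥ 1` and every
`T ≥ 3 r ⌈log₂ n⌉`, after `T` shuffles the joint law of their positions (`trackedLaw h k T x`) is
within total variation distance `(k / 2) (18 k ⌈log₂ n⌉ / n) ^ r` of the uniform law on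
`k`-tuples of distinct positions (`unifInj h k`). The total variation distance is written as half
the sum of the absolute differences. -/
theorem result (h k r : ℕ) [NeZero h] (hr : 1 ≤ r) (x : Fin k → ZMod (2 * h))
    (hx : Function.Injective x) (T : ℕ) (hT : 3 * r * Nat.clog 2 (2 * h) ≤ T) :
    (1 / 2 : ℝ) * ∑ y : Fin k → ZMod (2 * h), |trackedLaw h k T x y - unifInj h k y|
      ≤ (k : ℝ) / 2 * (18 * (k : ℝ) * (Nat.clog 2 (2 * h) : ℝ) / (2 * h : ℝ)) ^ r :=
  Vale.Agent.Lib.P162.H63R.kcard_r_all h k r hr x hx T hT

end Vale.Agent.Results.P162.ManyCardsAllEvenN
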