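import Mathlib
import Vale.Agent.Lib.P162.Defs
import Vale.Agent.Lib.P162.Law
import Vale.Agent.Lib.P162.helper63.RMain
import Vale.Agent.Lib.P162.helper57.RArith

namespace Vale.Agent.Results.P162.RangesAllEvenN

open Finset BigOperators
open Vale.Agent.Lib.P162

/-- Thorp shuffle of a deck of `n = 2 * h` cards, `n` ANY even number, `L = ⌈log₂ n⌉`. Track the
`k` cards that start in the distinct positions `x 0, …, x (k - 1)`; `trackedLaw h k T x` is the
joint law of their positions after `T` shuffles, `unifInj h k` the uniform law on `k`-tuples of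
distinct positions, and the total variation distance is half the sum of absolute differences.

1. If `k ≤ n ^ (1 - ε)` for a real `ε > 0` and `r` is an integer with `ε r ≥ 2`, then for every
   `T ≥ 3 r L` the distance is at most `(18 L) ^ r / (2 n)`.
2. If `36 k L ≤ n`, then for every `T ≥ 6 L ^ 2` the distance is at most `k / (2 n ^ 2)`. -/
theorem result :
    (∀ (h k r : ℕ) [NeZero h] (ε : ℝ) (x : Fin k → ZMod (2 * h)), Function.Injective x →
      0 < ε → 2 ≤ ε * (r : ℝ) → (k : ℝ) ≤ (2 * h : ℝ) ^ (1 - ε) →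
      ∀ T : ℕ, 3 * r * Nat.clog 2 (2 * h) ≤ T →
        (1 / 2 : ℝ) * ∑ y : Fin k → ZMod (2 * h), |trackedLaw h k T x y - unifInj h k y|
          ≤ (1 / 2 : ℝ) * (18 * (Nat.clog 2 (2 * h) : ℝ)) ^ r / (2 * h : ℝ))
    ∧ (∀ (h k : ℕ) [NeZero h] (x : Fin k → ZMod (2 * h)), Function.Injective x →
      36 * k * Nat.clog 2 (2 * h) ≤ 2 * h →
      ∀ T : ℕ, 6 * Nat.clog 2 (2 * h) ^ 2 ≤ T →
        (1 / 2 : ℝ) * ∑ y : Fin k → ZMod (2 * h), |trackedLaw h k T x y - unifInj h k y|
          ≤ (k : ℝ) / (2 * (2 * h : ℝ) ^ 2)) := by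
  refine ⟨?_, ?_⟩
  · intro h k r _ ε x hx hε hr hk T hT
    have hh : (1 : ℝ) ≤ h := by exact_mod_cast NeZero.pos h
    have hr1 : 1 ≤ r := by
      rcases Nat.eq_zero_or_pos r with h0 | h0
      · rw [h0] at hr
        norm_num at hr
      · exact h0
    refine le_trans (Vale.Agent.Lib.P162.H63R.kcard_r_all h k r hr1 x hx T hT) ?_
    exact Vale.Agent.Lib.P162.H57.arith_poly (2 * h : ℝ) k (Nat.clog 2 (2 * h) : ℝ) ε r
      (by linarith) (Nat.cast_nonneg k) (Nat.cast_nonneg _) hε hk hr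
  · intro h k _ x hx hk T hT
    have hh : (1 : ℝ) ≤ h := by exact_mod_cast NeZero.pos h
    have hL1 : 1 ≤ Nat.clog 2 (2 * h) :=
      Nat.clog_pos (by norm_num) (by have := NeZero.pos h; omega)
    have hT' : 3 * (2 * Nat.clog 2 (2 * h)) * Nat.clog 2 (2 * h) ≤ T := by
      have e : 3 * (2 * Nat.clog 2 (2 * h)) * Nat.clog 2 (2 * h)
          = 6 * Nat.clog 2 (2 * h) ^ 2 := by ring
      rw [e]
      exact hT
    refine le_trans (Vale.Agent.Lib.P162.H63R.kcard_r_all h k (2 * Nat.clog 2 (2 * h))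
      (by omega) x hx T hT') ?_
    have hk' : 36 * (k : ℝ) * (Nat.clog 2 (2 * h) : ℝ) ≤ (2 * h : ℝ) := by exact_mod_cast hk
    have hL : (2 * h : ℝ) ≤ 2 ^ Nat.clog 2 (2 * h) := by
      exact_mod_cast Nat.le_pow_clog (by norm_num) (2 * h)
    exact Vale.Agent.Lib.P162.H57.arith_polylog (2 * h : ℝ) k (Nat.clog 2 (2 * h))
      (by linarith) (Nat.cast_nonneg k) hk' hL

end Vale.Agent.Results.P162.RangesAllEvenN
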