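import Mathlib
import Vale.Agent.Results.P162.RangesAllEvenN
import Vale.Agent.Results.P162.LinearCardsAllEvenN

namespace Vale.Agent.Results.P162.TwoRangesAllEvenN

open Finset BigOperators
open Vale.Agent.Lib.P162

/-- Thorp shuffle of a deck of n = 2 * h cards, n ANY even number, L = ⌈log₂ n⌉. Track k cards
that start in the distinct positions x 0, …, x (k - 1); trackedLaw h k T x is the joint law of
their positions after T shuffles, unifInj h k the uniform law on k-tuples of distinct positions,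
and the total variation distance is half the sum of absolute differences. This collects two
results of this folder, with their statements unchanged:

1. if k ≤ n ^ (1 - ε), ε > 0 and ε r ≥ 2, then for T ≥ 3 r L the distance is at most
   (18 L) ^ r / (2 n);
2. if 36 k L ≤ n, then for T ≥ 6 L ^ 2 the distance is at most k / (2 n ^ 2);
3. if 15776 L ^ 2 ≤ n, 0 < ε ≤ 1 and k ≤ (1 - ε) n, then for every r and T ≥ (7 L + 1) r the
   distance is at most (k / 2) sqrt (n (1 - ε / 8) ^ r), and at most 1 / 4 if ε r ≥ 24 L. -/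
theorem result :
    ((∀ (h k r : ℕ) [NeZero h] (ε : ℝ) (x : Fin k → ZMod (2 * h)), Function.Injective x →
      0 < ε → 2 ≤ ε * (r : ℝ) → (k : ℝ) ≤ (2 * h : ℝ) ^ (1 - ε) →
      ∀ T : ℕ, 3 * r * Nat.clog 2 (2 * h) ≤ T →
        (1 / 2 : ℝ) * ∑ y : Fin k → ZMod (2 * h), |trackedLaw h k T x y - unifInj h k y|
          ≤ (1 / 2 : ℝ) * (18 * (Nat.clog 2 (2 * h) : ℝ)) ^ r / (2 * h : ℝ))
    ∧ (∀ (h k : ℕ) [NeZero h] (x : Fin k → ZMod (2 * h)), Function.Injective x →
      36 * k * Nat.clog 2 (2 * h) ≤ 2 * h →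
      ∀ T : ℕ, 6 * Nat.clog 2 (2 * h) ^ 2 ≤ T →
        (1 / 2 : ℝ) * ∑ y : Fin k → ZMod (2 * h), |trackedLaw h k T x y - unifInj h k y|
          ≤ (k : ℝ) / (2 * (2 * h : ℝ) ^ 2)))
    ∧ (∀ (h k : ℕ) [NeZero h] (ε : ℝ), 0 < ε → ε ≤ 1 →
      15776 * Nat.clog 2 (2 * h) ^ 2 ≤ 2 * h →
      (k : ℝ) ≤ (1 - ε) * (2 * h : ℝ) →
      ∀ x : Fin k → ZMod (2 * h), Function.Injective x → ∀ r T : ℕ,
      (7 * Nat.clog 2 (2 * h) + 1) * r ≤ T →
        (1 / 2 : ℝ) * ∑ y : Fin k → ZMod (2 * h), |trackedLaw h k T x y - unifInj h k y|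
            ≤ (k : ℝ) / 2 * Real.sqrt ((2 * h : ℝ) * (1 - ε / 8) ^ r)
          ∧ (24 * (Nat.clog 2 (2 * h) : ℝ) ≤ ε * (r : ℝ) →
            (1 / 2 : ℝ) * ∑ y : Fin k → ZMod (2 * h), |trackedLaw h k T x y - unifInj h k y|
              ≤ 1 / 4)) :=
  ⟨Vale.Agent.Results.P162.RangesAllEvenN.result,
    fun h k _ ε hε hε1 hn hk x hx r T hT =>
      Vale.Agent.Results.P162.LinearCardsAllEvenN.result h k ε hε hε1 hn hk x hx r T hT⟩

end Vale.Agent.Results.P162.TwoRangesAllEvenN
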